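import Vale.Agent.P062.Engine

/-!
# P062: masks of the copies of Snaky in a square window
-/

namespace Vale.Agent.P062.Engine

/-- The eight shapes, shifted to the corner of their bounding box. -/
def orient : ℕ → List (ℕ × ℕ)
  | 0 => [(0, 0), (1, 0), (2, 0), (3, 0), (3, 1), (4, 1)]
  | 1 => [(0, 1), (1, 0), (1, 1), (2, 0), (3, 0), (4, 0)]
  | 2 => [(0, 1), (1, 1), (2, 1), (3, 0), (3, 1), (4, 0)]
  | 3 => [(0, 0), (1, 0), (1, 1), (2, 1), (3, 1), (4, 1)]
  | 4 => [(0, 0), (0, 1), (0, 2), (0, 3), (1, 3), (1, 4)]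
  | 5 => [(0, 3), (0, 4), (1, 0), (1, 1), (1, 2), (1, 3)]
  | 6 => [(0, 1), (0, 2), (0, 3), (0, 4), (1, 0), (1, 1)]
  | 7 => [(0, 0), (0, 1), (1, 1), (1, 2), (1, 3), (1, 4)]
  | _ => []

/-- Bit of the cell `(x, y)` of a window of side `N`; cells are numbered by rows. -/
def cellBit (N x y : ℕ) : ℕ := Nat.shiftLeft 1 (Nat.add (Nat.mul y N) x)

/-- Union of the cells of a shifted shape, `0` unless all of it lies in the window. -/
noncomputable def placeMask (N tx ty : ℕ) (L : List (ℕ × ℕ)) : ℕ :=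
  bif L.all (fun c => Nat.blt (Nat.add tx c.1) N && Nat.blt (Nat.add ty c.2) N) then
    L.foldr (fun c acc => Nat.lor (cellBit N (Nat.add tx c.1) (Nat.add ty c.2)) acc) 0
  else 0

/-- Mask of placement `p = (o * N + ty) * N + tx`. -/
noncomputable def copyMask (N p : ℕ) : ℕ :=
  force (Nat.div p (Nat.mul N N)) fun o => force (Nat.mod (Nat.div p N) N) fun ty =>
    force (Nat.mod p N) fun tx => placeMask N tx ty (orient o)

end Vale.Agent.P062.Engine
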