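import Mathlib

/-!
# P062: kernel engine for a certificate of a Maker win

A node of the certificate carries a pair of cell sets (what Maker must own, what Breaker must not
own), packed into one number and stored in a binary tree; every node is checked against the values
of the nodes before it, so runs of nodes can be checked separately. The engine knows nothing about
the game: it preserves any relation closed under the leaf rule and the move rule.
-/

namespace Vale.Agent.P062.Engine

/-- Evaluate a number before passing it on. -/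
def force {α : Type} (x : ℕ) (k : ℕ → α) : α := match x with
  | 0 => k 0
  | n + 1 => k (n + 1)

@[simp] lemma force_eq {α : Type} (x : ℕ) (k : ℕ → α) : force x k = k x := by
  cases x <;> rfl

/-- A table of numbers. -/
inductive Tab : Type
  | leaf (v : ℕ)
  | node (l r : Tab)

/-- Entry number `i`, the lowest bit deciding first. -/
noncomputable def Tab.get : Tab → ℕ → ℕ :=
  Tab.rec (fun v _ => v) fun _ _ gl gr i =>
    force i fun i => bif Nat.beq (Nat.mod i 2) 0 then gl (Nat.div i 2) else gr (Nat.div i 2)

/-- What Maker must own. -/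
def fR (v : ℕ) : ℕ := Nat.mod (Nat.shiftRight v 32) (2 ^ 320)

/-- What Breaker must not own. -/
def fZ (v : ℕ) : ℕ := Nat.shiftRight v 352

/-- Union of the requirements of the kids. -/
noncomputable def orR (G : ℕ → ℕ) : ℕ → ℕ :=
  Nat.rec 0 fun i ih => Nat.lor ih (fR (G i))

/-- Union of the zones of the kids. -/
noncomputable def orZ (G : ℕ → ℕ) : ℕ → ℕ :=
  Nat.rec 0 fun i ih => Nat.lor ih (fZ (G i))

/-- Intersection of the zones of the first kid and the following ones. -/
noncomputable def andZ (G : ℕ → ℕ) : ℕ → ℕ :=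
  Nat.rec (fZ (G 0)) fun i ih => Nat.land ih (fZ (G (Nat.succ i)))

/-- Conjunction over the numbers below `n`. -/
noncomputable def allUp (F : ℕ → Bool) : ℕ → Bool :=
  Nat.rec true fun i ih => ih && F i

lemma allUp_spec {F : ℕ → Bool} : ∀ n, allUp F n = true → ∀ i < n, F i = true
  | 0, _, i, hi => absurd hi (Nat.not_lt_zero i)
  | n + 1, h, i, hi => by
    change (allUp F n && F n) = true at h
    rw [Bool.and_eq_true] at h
    rcases Nat.lt_succ_iff_lt_or_eq.1 hi with h' | h'
    · exact allUp_spec n h.1 i h'
    · exact h' ▸ h.2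

/-- Kid number `i` of a node. -/
def kid (code i : ℕ) : ℕ := Nat.mod (Nat.shiftRight code (Nat.add 24 (Nat.mul 24 i))) (2 ^ 24)

/-- Value of kid number `i`. -/
noncomputable def kval (T : Tab) (code i : ℕ) : ℕ := T.get (kid code i)

/-- Check of a move node with cell `m` and `k` kids at position `j`. -/
noncomputable def moveOk (T : Tab) (code j m k : ℕ) : Bool :=
  force (Nat.shiftLeft 1 m) fun b => force (T.get j) fun v =>
    force (orR (kval T code) k) fun U => force (andZ (kval T code) (Nat.pred k)) fun I =>
      allUp (fun i => Nat.blt (kid code i) j) k &&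
        Nat.beq (Nat.land I (Nat.lor U b)) I &&
        Nat.beq (Nat.lor (fR v) b) (Nat.lor U b) && Nat.beq (Nat.land (fR v) b) 0 &&
        Nat.beq (fZ v) (Nat.lor (orZ (kval T code) k) b)

/-- Check of a leaf with cell `c` and copy mask `S` at position `j`. -/
noncomputable def leafOk (T : Tab) (j c S : ℕ) : Bool :=
  force (Nat.shiftLeft 1 c) fun b => force (T.get j) fun v =>
    Nat.beq (Nat.land S b) b && Nat.beq (Nat.lor (fR v) b) S && Nat.beq (Nat.land (fR v) b) 0 &&
      Nat.beq (fZ v) b

/-- Check of one node: the mask of placement `p` is `copy p`, none being `0`. -/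
noncomputable def nodeOk (T : Tab) (copy : ℕ → ℕ) (j code : ℕ) : Bool :=
  force (Nat.mod (Nat.shiftRight code 12) 4096) fun m => force (Nat.mod code 4096) fun k =>
    bif Nat.beq k 0 then
      force (copy (Nat.shiftRight code 24)) fun S => Nat.ble 1 S && leafOk T j m S
    else moveOk T code j m k

/-- Check of consecutive nodes from position `j` on. -/
noncomputable def okList (T : Tab) (copy : ℕ → ℕ) : List ℕ → ℕ → Bool :=
  List.rec (fun _ => true) fun code _ ih j =>
    force j fun j => force code fun code => nodeOk T copy j code && ih (Nat.succ j)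

/-- Masks in one number, as membership. -/
def Has (R c : ℕ) : Prop := R.testBit c = true

/-- A relation closed under the leaf rule and the move rule. -/
structure Closed (W : ℕ → ℕ → Prop) (copy : ℕ → ℕ) : Prop where
  leaf : ∀ p c R Z, copy p ≠ 0 → Has (copy p) c → (∀ i, Has R i ↔ i ≠ c ∧ Has (copy p) i) →
    (∀ i, Has Z i ↔ i = c) → W R Z
  move : ∀ m k, 0 < k → ∀ Rs Zs : ℕ → ℕ, (∀ i < k, W (Rs i) (Zs i)) →
    (∀ c, (∀ i < k, Has (Zs i) c) → c = m ∨ ∃ i < k, Has (Rs i) c) → ∀ R Z,
    (∀ c, Has R c ↔ c ≠ m ∧ ∃ i < k, Has (Rs i) c) →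
    (∀ c, Has Z c ↔ c = m ∨ ∃ i < k, Has (Zs i) c) → W R Z

/-- All nodes before `n` are valid. -/
def Good (W : ℕ → ℕ → Prop) (T : Tab) (n : ℕ) : Prop :=
  ∀ j < n, W (fR (T.get j)) (fZ (T.get j))

lemma good_zero (W : ℕ → ℕ → Prop) (T : Tab) : Good W T 0 :=
  fun j hj => absurd hj (Nat.not_lt_zero j)

lemma has_or {a b c : ℕ} : Has (Nat.lor a b) c ↔ Has a c ∨ Has b c := by
  show (a ||| b).testBit c = true ↔ _
  simp [Has, Nat.testBit_or]

lemma has_and {a b c : ℕ} : Has (Nat.land a b) c ↔ Has a c ∧ Has b c := by
  show (a &&& b).testBit c = true ↔ _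
  simp [Has, Nat.testBit_and]

lemma has_one {m c : ℕ} : Has (Nat.shiftLeft 1 m) c ↔ c = m := by
  show (1 <<< m).testBit c = true ↔ _
  simp [Nat.one_shiftLeft, Nat.testBit_two_pow, eq_comm]

lemma has_orR (G : ℕ → ℕ) : ∀ k c, Has (orR G k) c ↔ ∃ i < k, Has (fR (G i)) c
  | 0, c => by simp [orR, Has]
  | k + 1, c => by
    show Has (Nat.lor (orR G k) (fR (G k))) c ↔ _
    rw [has_or, has_orR G k, Nat.exists_lt_succ_right]

lemma has_orZ (G : ℕ → ℕ) : ∀ k c, Has (orZ G k) c ↔ ∃ i < k, Has (fZ (G i)) c
  | 0, c => by simp [orZ, Has]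
  | k + 1, c => by
    show Has (Nat.lor (orZ G k) (fZ (G k))) c ↔ _
    rw [has_or, has_orZ G k, Nat.exists_lt_succ_right]

lemma has_andZ (G : ℕ → ℕ) : ∀ k c, Has (andZ G k) c ↔ ∀ i < k + 1, Has (fZ (G i)) c
  | 0, c => by simp [andZ]
  | k + 1, c => by
    show Has (Nat.land (andZ G k) (fZ (G (k + 1)))) c ↔ _
    rw [has_and, has_andZ G k, Nat.forall_lt_succ_right (n := k + 1)]

variable {W : ℕ → ℕ → Prop} {T : Tab} {copy : ℕ → ℕ}

lemma node_sound (hW : Closed W copy) {j code : ℕ} (hg : Good W T j)
    (h : nodeOk T copy j code = true) : W (fR (T.get j)) (fZ (T.get j)) := by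
  simp only [nodeOk, force_eq] at h
  generalize Nat.mod (Nat.shiftRight code 12) 4096 = m at h
  generalize Nat.mod code 4096 = k at h
  cases k with
  | zero =>
    simp only [show Nat.beq 0 0 = true from rfl, cond_true, leafOk, force_eq, Bool.and_eq_true,
      Nat.ble_eq, Nat.beq_eq] at h
    obtain ⟨hS, ⟨⟨hc, hR⟩, hd⟩, hZ⟩ := h
    refine hW.leaf (Nat.shiftRight code 24) m _ _ (by omega) ?_ (fun i => ?_)
      (fun i => by rw [hZ, has_one])
    · have : Has (Nat.land (copy (Nat.shiftRight code 24)) (Nat.shiftLeft 1 m)) m := by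
        rw [hc, has_one]
      exact (has_and.1 this).1
    · rw [← hR, has_or, has_one]
      constructor
      · intro hi
        refine ⟨?_, Or.inl hi⟩
        rintro rfl
        have : Has (Nat.land (fR (T.get j)) (Nat.shiftLeft 1 i)) i :=
          has_and.2 ⟨hi, has_one.2 rfl⟩
        rw [hd] at this
        simp [Has] at this
      · rintro ⟨hne, hi | hi⟩
        · exact hi
        · exact absurd hi hne
  | succ k =>
    rw [show Nat.beq (k + 1) 0 = false from rfl] at h
    simp only [cond_false, moveOk, force_eq, Bool.and_eq_true, Nat.beq_eq, Nat.pred_succ] at h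
    obtain ⟨⟨⟨⟨hlt, hI⟩, hR⟩, hd⟩, hZ⟩ := h
    refine hW.move m (k + 1) (Nat.succ_pos k) (fun i => fR (kval T code i))
      (fun i => fZ (kval T code i)) (fun i hi => ?_) (fun c hc => ?_) _ _ (fun c => ?_) (fun c => ?_)
    · have := allUp_spec _ hlt i hi
      rw [Nat.blt_eq] at this
      exact hg _ this
    · have h1 : Has (andZ (kval T code) k) c := (has_andZ _ k c).2 hc
      rw [← hI, has_and, has_or, has_orR, has_one] at h1
      exact h1.2.symm
    · rw [← has_orR]
      have e : Has (fR (T.get j)) c ∨ c = m ↔ Has (orR (kval T code) (k + 1)) c ∨ c = m := by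
        rw [← @has_one m c, ← has_or, hR, has_or]
      constructor
      · intro hc
        have hne : c ≠ m := by
          rintro rfl
          have : Has (Nat.land (fR (T.get j)) (Nat.shiftLeft 1 c)) c :=
            has_and.2 ⟨hc, has_one.2 rfl⟩
          rw [hd] at this
          simp [Has] at this
        exact ⟨hne, (e.1 (Or.inl hc)).resolve_right hne⟩
      · rintro ⟨hne, hc⟩
        exact (e.2 (Or.inl hc)).resolve_right hne
    · rw [hZ, has_or, has_one, has_orZ, or_comm]

/-- A checked run of nodes extends the valid part of the table. -/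
theorem good_list (hW : Closed W copy) : ∀ (L : List ℕ) (n : ℕ), Good W T n →
    okList T copy L n = true → Good W T (n + L.length)
  | [], n, hg, _ => hg
  | code :: L, n, hg, h => by
    change (force n fun j => force code fun code => nodeOk T copy j code && okList T copy L (j + 1))
      = true at h
    simp only [force_eq, Bool.and_eq_true] at h
    rw [List.length_cons, ← Nat.add_assoc, Nat.add_right_comm]
    refine good_list hW L (n + 1) (fun j hj => ?_) h.2
    rcases Nat.lt_succ_iff_lt_or_eq.1 hj with h' | h'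
    · exact hg j h'
    · exact h' ▸ node_sound hW hg h.1

end Vale.Agent.P062.Engine
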