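import Mathlib

/-!
# P062: the achievement game for Snaky

Maker and Breaker alternately claim unclaimed cells of the plane, Maker first; Maker wins when it
owns an allowed copy of Snaky.
-/

namespace Vale.Agent.P062

/-- A cell of the plane, indexed by its lower-left corner. -/
abbrev Cell := ℤ × ℤ

/-- The Snaky hexomino. -/
def snaky : Finset Cell := {(0, 0), (1, 0), (2, 0), (3, 0), (3, 1), (4, 1)}

/-- A signed coordinate permutation: possibly swap, then multiply by signs. -/
def signedPerm (sw : Bool) (e f : ℤˣ) (c : Cell) : Cell :=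
  if sw then ((e : ℤ) * c.2, (f : ℤ) * c.1) else ((e : ℤ) * c.1, (f : ℤ) * c.2)

/-- An allowed copy: a translate of an image under one of the eight signed permutations. -/
def Allowed (C : Finset Cell) : Prop :=
  ∃ (t : Cell) (sw : Bool) (e f : ℤˣ), C = snaky.image fun c => t + signedPerm sw e f c

/-- Maker owns an allowed copy. -/
def Owns (M : Finset Cell) : Prop := ∃ C, Allowed C ∧ C ⊆ M

/-- With Maker to move, Maker can force owning a copy within `n` of its moves. -/
def WinIn : ℕ → Finset Cell → Finset Cell → Prop
  | 0, _, _ => False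
  | n + 1, M, B => ∃ c, c ∉ M ∧ c ∉ B ∧
      (Owns (insert c M) ∨ ∀ b, b ∉ insert c M → b ∉ B → WinIn n (insert c M) (insert b B))

/-- The position after `k` rounds, Maker following `σ` and Breaker claiming `β 0, β 1, …`. -/
def play (σ : Finset Cell → Finset Cell → Cell) (β : ℕ → Cell) : ℕ → Finset Cell × Finset Cell
  | 0 => (∅, ∅)
  | k + 1 => (insert (σ (play σ β k).1 (play σ β k).2) (play σ β k).1,
      insert (β k) (play σ β k).2)

/-- Breaker's first `k` claims take unclaimed cells. -/
def Legal (σ : Finset Cell → Finset Cell → Cell) (β : ℕ → Cell) (k : ℕ) : Prop :=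
  ∀ i < k, β i ∉ (play σ β (i + 1)).1 ∧ β i ∉ (play σ β i).2

/-- Maker has a winning strategy: it always claims an unclaimed cell, and whenever Breaker's claims
are legal, it owns a copy after `n` rounds (claims are permanent, so also after every later one). -/
def MakerWins : Prop :=
  ∃ (n : ℕ) (σ : Finset Cell → Finset Cell → Cell), (∀ M B, σ M B ∉ M ∧ σ M B ∉ B) ∧
    ∀ β : ℕ → Cell, Legal σ β n → Owns (play σ β n).1

end Vale.Agent.P062
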