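import Vale.Agent.P062.Win
import Vale.Agent.P062.Copy

/-!
# P062: soundness of the engine for the game

Bit `y * N + x` stands for the cell `(x - N / 2, y - N / 2)`.
-/

namespace Vale.Agent.P062

open Engine

/-- The cell of a bit. -/
def cellOf (N i : ℕ) : Cell := (((i % N : ℕ) : ℤ) - (N / 2 : ℕ), ((i / N : ℕ) : ℤ) - (N / 2 : ℕ))

lemma cellOf_inj {N : ℕ} {i j : ℕ} (h : cellOf N i = cellOf N j) : i = j := by
  simp only [cellOf, Prod.mk.injEq, sub_left_inj, Nat.cast_inj] at h
  rw [← Nat.mod_add_div i N, ← Nat.mod_add_div j N, h.1, h.2]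

/-- The cells of a mask. -/
def cells (N R : ℕ) : Set Cell := cellOf N '' {i | Has R i}

lemma mem_cells {N R i : ℕ} : cellOf N i ∈ cells N R ↔ Has R i :=
  ⟨fun ⟨_, hj, e⟩ => cellOf_inj e ▸ hj, fun h => ⟨i, h, rfl⟩⟩

/-- The shapes of the engine are allowed copies. -/
lemma orient_allowed : ∀ o, o < 8 → ∃ (t : Cell) (sw : Bool) (e f : ℤˣ),
    (orient o).toFinset.image (fun c : ℕ × ℕ => ((c.1 : ℤ), (c.2 : ℤ)))
      = snaky.image fun c => t + signedPerm sw e f c := by
  intro o ho
  interval_cases o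
  · exact ⟨(0, 0), false, 1, 1, by decide⟩
  · exact ⟨(4, 0), false, -1, 1, by decide⟩
  · exact ⟨(0, 1), false, 1, -1, by decide⟩
  · exact ⟨(4, 1), false, -1, -1, by decide⟩
  · exact ⟨(0, 0), true, 1, 1, by decide⟩
  · exact ⟨(1, 0), true, -1, 1, by decide⟩
  · exact ⟨(0, 4), true, 1, -1, by decide⟩
  · exact ⟨(1, 4), true, -1, -1, by decide⟩

lemma has_foldr {N tx ty i : ℕ} : ∀ L : List (ℕ × ℕ),
    Has (L.foldr (fun c acc => Nat.lor (cellBit N (Nat.add tx c.1) (Nat.add ty c.2)) acc) 0) i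
      ↔ ∃ c ∈ L, i = (ty + c.2) * N + (tx + c.1)
  | [] => by simp [Has]
  | c :: L => by
    rw [List.foldr_cons, has_or, cellBit, has_one, has_foldr L]
    simp

/-- A placement mask is an allowed copy. -/
lemma copy_allowed {N p : ℕ} (h : copyMask N p ≠ 0) :
    ∃ C, Allowed C ∧ ∀ z, z ∈ C ↔ z ∈ cells N (copyMask N p) := by
  simp only [copyMask, force_eq] at h ⊢
  generalize Nat.div p (Nat.mul N N) = o at h ⊢
  generalize Nat.mod (Nat.div p N) N = ty at h ⊢
  generalize Nat.mod p N = tx at h ⊢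
  rw [placeMask] at h ⊢
  cases hall : (orient o).all fun c => Nat.blt (Nat.add tx c.1) N && Nat.blt (Nat.add ty c.2) N with
  | false =>
    rw [hall] at h
    exact absurd rfl h
  | true =>
    rw [hall] at h
    simp only [cond_true] at h ⊢
    simp only [List.all_eq_true, Bool.and_eq_true, Nat.blt_eq, Nat.add_eq] at hall
    have ho : o < 8 := by
      by_contra hc
      match o, hc with
      | o + 8, _ => exact h rfl
    obtain ⟨t, sw, e, f, he⟩ := orient_allowed o ho
    set h' : ℤ := ((N / 2 : ℕ) : ℤ)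
    refine ⟨snaky.image fun c => (((tx : ℤ) - h', (ty : ℤ) - h') + t) + signedPerm sw e f c,
      ⟨_, sw, e, f, rfl⟩, fun z => ?_⟩
    have hmem : ∀ a : Cell, (∃ c ∈ orient o, ((c.1 : ℤ), (c.2 : ℤ)) = a) ↔
        ∃ c ∈ snaky, t + signedPerm sw e f c = a := by
      intro a
      have := congrArg (fun S => a ∈ S) he
      simpa using this
    simp only [Finset.mem_image]
    constructor
    · rintro ⟨c, hc, rfl⟩
      obtain ⟨c', hc', e'⟩ := (hmem _).2 ⟨c, hc, rfl⟩
      refine ⟨(ty + c'.2) * N + (tx + c'.1), (has_foldr _).2 ⟨c', hc', rfl⟩, ?_⟩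
      have hx := (hall c' hc').1
      have hN : 0 < N := by omega
      rw [add_assoc, ← e', cellOf, Nat.mul_add_mod_self_right, Nat.mod_eq_of_lt hx,
        Nat.mul_comm (ty + c'.2) N, Nat.mul_add_div hN, Nat.div_eq_of_lt hx, Nat.add_zero]
      refine Prod.ext ?_ ?_ <;> simp only [h', Prod.mk_add_mk, Nat.cast_add] <;> ring
    · rintro ⟨i, hi, rfl⟩
      obtain ⟨c', hc', rfl⟩ := (has_foldr _).1 hi
      obtain ⟨c, hc, e'⟩ := (hmem _).1 ⟨c', hc', rfl⟩
      refine ⟨c, hc, ?_⟩
      have hx := (hall c' hc').1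
      have hN : 0 < N := by omega
      rw [add_assoc, e', cellOf, Nat.mul_add_mod_self_right, Nat.mod_eq_of_lt hx,
        Nat.mul_comm (ty + c'.2) N, Nat.mul_add_div hN, Nat.div_eq_of_lt hx, Nat.add_zero]
      refine Prod.ext ?_ ?_ <;> simp only [h', Prod.mk_add_mk, Nat.cast_add] <;> ring

/-- The game satisfies the two rules of the engine. -/
theorem closed_win (N : ℕ) : Closed (fun R Z => Win (cells N R) (cells N Z)) (copyMask N) where
  leaf p c R Z hp _ hR hZ := by
    obtain ⟨C, hC, hmem⟩ := copy_allowed hp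
    refine win_leaf hC (c := cellOf N c) (fun z hz hne => ?_) ⟨c, (hZ c).2 rfl, rfl⟩
    obtain ⟨i, hi, rfl⟩ := (hmem z).1 hz
    exact ⟨i, (hR i).2 ⟨fun h => hne (congrArg _ h), hi⟩, rfl⟩
  move m k hk Rs Zs hW hI R Z hR hZ := by
    refine win_move (ι := Fin k) (m := cellOf N m) (Rs := fun i => cells N (Rs i))
      (Zs := fun i => cells N (Zs i)) (fun i => hW i i.2) (fun z hz => ?_) ?_
      ⟨m, (hZ m).2 (Or.inl rfl), rfl⟩ ?_
    · obtain ⟨c, -, rfl⟩ := hz ⟨0, hk⟩
      rcases hI c fun i hi => mem_cells.1 (hz ⟨i, hi⟩) with rfl | ⟨i, hi, h⟩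
      · exact Or.inl rfl
      · exact Or.inr ⟨⟨i, hi⟩, c, h, rfl⟩
    · rintro i z ⟨c, hc, rfl⟩
      by_cases h : c = m
      · exact Or.inl (congrArg _ h)
      · exact Or.inr ⟨c, (hR c).2 ⟨h, i, i.2, hc⟩, rfl⟩
    · rintro i z ⟨c, hc, rfl⟩
      exact ⟨c, (hZ c).2 (Or.inr ⟨i, i.2, hc⟩), rfl⟩

/-- The image of a window bit under symmetry number `s`; `a` swaps, `b` and `c` negate. -/
def symBit (N : ℕ) (a b c : Bool) (i : ℕ) : ℕ :=
  let x := bif a then i / N else i % N
  let y := bif a then i % N else i / N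
  (bif c then N - 1 - y else y) * N + (bif b then N - 1 - x else x)

/-- The eight choices. -/
def syms : List (Bool × Bool × Bool) :=
  [(false, false, false), (false, true, false), (false, false, true), (false, true, true),
    (true, false, false), (true, true, false), (true, false, true), (true, true, true)]

/-- Every cell of the window but the centre and `exc` avoids the zone of some root, up to
symmetry. -/
noncomputable def coverOk (N : ℕ) (T : Tab) (roots exc : List ℕ) : Bool :=
  Nat.beq (Nat.mod N 2) 1 &&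
    roots.all (fun r => Nat.beq (Nat.land (fR (T.get r))
      (Nat.shiftLeft 1 (Nat.add (Nat.mul (N / 2) N) (N / 2)))) (fR (T.get r))) &&
    Engine.allUp (fun i => Nat.beq i (Nat.add (Nat.mul (N / 2) N) (N / 2)) || exc.any (Nat.beq i) ||
      syms.any fun s => roots.any fun r =>
        !(Nat.testBit (fZ (T.get r)) (symBit N s.1 s.2.1 s.2.2 i))) (N * N) &&
    roots.all (fun r => Nat.beq (Nat.shiftRight (fZ (T.get r)) (N * N)) 0) &&
    Nat.ble 1 roots.length

lemma cellOf_symBit {N : ℕ} (hN : N % 2 = 1) (a b c : Bool) {i : ℕ} (hi : i < N * N) :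
    ∃ (sw : Bool) (e f : ℤˣ), cellOf N (symBit N a b c i) = signedPerm sw e f (cellOf N i) ∧
      ∀ j, cellOf N j = (0, 0) → signedPerm sw e f (cellOf N j) = (0, 0) := by
  refine ⟨a, (if b then -1 else 1), (if c then -1 else 1), ?_, fun j hj => by
    rw [hj]; cases a <;> simp [signedPerm]⟩
  have hN0 : 0 < N := by omega
  have hx : i % N < N := Nat.mod_lt _ hN0
  have hy : i / N < N := Nat.div_lt_of_lt_mul hi
  set x := bif a then i / N else i % N with hxd
  set y := bif a then i % N else i / N with hyd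
  have hxN : x < N := by cases a <;> assumption
  have hyN : y < N := by cases a <;> assumption
  have hX : (bif b then N - 1 - x else x) < N := by cases b <;> simp only [cond_true, cond_false] <;> omega
  have e : symBit N a b c i = (bif c then N - 1 - y else y) * N + (bif b then N - 1 - x else x) := rfl
  rw [e, cellOf, Nat.mul_add_mod_self_right, Nat.mod_eq_of_lt hX, Nat.mul_comm _ N,
    Nat.mul_add_div hN0, Nat.div_eq_of_lt hX, Nat.add_zero]
  have hh : (N : ℤ) = 2 * ((N / 2 : ℕ) : ℤ) + 1 := by omega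
  have key : ∀ z, z < N → ((N - 1 - z : ℕ) : ℤ) - (N / 2 : ℕ) = -((z : ℤ) - (N / 2 : ℕ)) := by
    intro z hz; omega
  refine Prod.ext ?_ ?_
  · cases b <;> cases a <;>
      simp only [signedPerm, cellOf, cond_true, cond_false, if_true, if_false, hxd,
        Bool.false_eq_true, Units.val_one, Units.val_neg, one_mul, neg_mul, key _ hx, key _ hy]
  · cases c <;> cases a <;>
      simp only [signedPerm, cellOf, cond_true, cond_false, if_true, if_false, hyd,
        Bool.false_eq_true, Units.val_one, Units.val_neg, one_mul, neg_mul, key _ hx, key _ hy]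

/-- A covering family of roots answers every first reply outside `exc`. -/
theorem winIn_of_cover {N n : ℕ} {T : Tab} {roots exc : List ℕ} (hr : ∀ r ∈ roots, r < n)
    (hg : Good (fun R Z => Win (cells N R) (cells N Z)) T n) (h : coverOk N T roots exc = true) :
    ∃ m, ∀ z : Cell, z ≠ (0, 0) → (∀ i ∈ exc, z ≠ cellOf N i) → WinIn m {(0, 0)} {z} := by
  simp only [coverOk, Bool.and_eq_true, List.all_eq_true, Nat.beq_eq, Nat.ble_eq] at h
  obtain ⟨⟨⟨⟨hodd, hR⟩, hcov⟩, hwin⟩, hlen⟩ := h
  have hcentre : cellOf N (N / 2 * N + N / 2) = (0, 0) := by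
    have hx : N / 2 < N := by have : N % 2 = 1 := hodd; omega
    rw [cellOf, Nat.mul_add_mod_self_right, Nat.mod_eq_of_lt hx, Nat.mul_comm _ N,
      Nat.mul_add_div (by omega), Nat.div_eq_of_lt hx]
    simp
  have hN : N % 2 = 1 := hodd
  have hRsub : ∀ r ∈ roots, cells N (fR (T.get r)) ⊆ {(0, 0)} := by
    rintro r hr' z ⟨i, hi, rfl⟩
    have hi' : Has (fR (T.get r)) i := hi
    rw [← hR r hr', has_and, has_one] at hi'
    rw [hi'.2]
    exact hcentre
  -- all images of the roots
  let ι := Fin roots.length × Bool × ℤˣ × ℤˣ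
  have hW : ∀ q : ι, Win (symm8 q.2.1 q.2.2.1 q.2.2.2 '' cells N (fR (T.get roots[q.1])))
      (symm8 q.2.1 q.2.2.1 q.2.2.2 '' cells N (fZ (T.get roots[q.1]))) := fun q =>
    win_map _ _ _ (hg _ (hr _ (List.getElem_mem q.1.2)))
  have hR0 : ∀ q : ι, ∀ z ∈ symm8 q.2.1 q.2.2.1 q.2.2.2 '' cells N (fR (T.get roots[q.1])),
      z = (0, 0) := by
    rintro ⟨r, sw, e, f⟩ z ⟨w, hw, rfl⟩
    have : w = (0, 0) := hRsub _ (List.getElem_mem r.2) hw
    subst this
    cases sw <;> simp [symm8, signedPerm]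
  choose m hm using hW
  refine ⟨Finset.univ.sup m, fun z hz0 hzexc => ?_⟩
  suffices hq : ∃ q : ι, z ∉ symm8 q.2.1 q.2.2.1 q.2.2.2 '' cells N (fZ (T.get roots[q.1])) by
    obtain ⟨q, hq⟩ := hq
    refine winIn_mono (Finset.le_sup (Finset.mem_univ q)) (hm q _ _ ?_ ?_ ?_)
    · simpa [eq_comm] using hz0
    · intro w hw; simp [hR0 q w hw]
    · simpa using hq
  by_contra hz
  push Not at hz
  -- such a cell lies in the window
  obtain ⟨w, ⟨i, hi, rfl⟩, hw⟩ := hz (⟨0, hlen⟩, false, 1, 1)
  have hw' : z = cellOf N i := by rw [← hw]; simp [symm8, signedPerm]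
  subst hw'
  have hiN : i < N * N := by
    by_contra hc
    have h0 := hwin _ (List.getElem_mem hlen)
    have : (fZ (T.get roots[0])).testBit i = true := hi
    rw [show i = N * N + (i - N * N) by omega, ← Nat.testBit_shiftRight] at this
    rw [show fZ (T.get roots[0]) >>> (N * N) = 0 from h0] at this
    simp at this
  have hb := Engine.allUp_spec _ hcov i hiN
  simp only [Bool.or_eq_true, Nat.beq_eq] at hb
  rcases hb with (rfl | hb) | hb
  · exact hz0 hcentre
  · obtain ⟨j, hj, hij⟩ := List.any_eq_true.1 hb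
    exact hzexc j hj (congrArg _ (Nat.eq_of_beq_eq_true hij))
  simp only [List.any_eq_true, Bool.not_eq_eq_eq_not, Bool.not_true] at hb
  obtain ⟨⟨a, b, c⟩, -, r, hr', hno⟩ := hb
  obtain ⟨k, hk, rfl⟩ := List.getElem_of_mem hr'
  obtain ⟨sw, e, f, he, -⟩ := cellOf_symBit hN a b c hiN
  obtain ⟨s, a', b', hgeq⟩ : ∃ (s : Bool) (a' b' : ℤˣ),
      symm8 s a' b' (cellOf N (symBit N a b c i)) = cellOf N i := by
    have := (symm8 sw e f).symm_apply_apply (cellOf N i)
    refine ⟨sw, if sw then f else e, if sw then e else f, ?_⟩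
    rw [he]
    cases sw <;> simpa [symm8] using this
  obtain ⟨w, hw, hw'⟩ := hz (⟨k, hk⟩, s, a', b')
  rw [← hgeq] at hw'
  have := (symm8 _ _ _).injective hw'
  subst this
  have := mem_cells.1 hw
  simp only [Has, Fin.getElem_fin] at this
  rw [hno] at this
  exact absurd this Bool.false_ne_true

/-- The first move at the centre and a covering family of roots give Maker a win. -/
theorem makerWins_of_cover {N n : ℕ} {T : Tab} {roots : List ℕ} (hr : ∀ r ∈ roots, r < n)
    (hg : Good (fun R Z => Win (cells N R) (cells N Z)) T n) (h : coverOk N T roots [] = true) :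
    MakerWins := by
  obtain ⟨m, hm⟩ := winIn_of_cover hr hg h
  refine makerWins_of_winIn (n := m + 1) ⟨(0, 0), by simp, by simp, Or.inr fun b hb _ => ?_⟩
  simpa using hm b (by simpa using hb) (by simp)

/-- `good_list` with the new length checked separately. -/
theorem good_step {N n e : ℕ} {T : Engine.Tab} {L : List ℕ}
    (hg : Good (fun R Z => Win (cells N R) (cells N Z)) T n)
    (h : Engine.okList T (copyMask N) L n = true) (he : Nat.beq (n + L.length) e = true) :
    Good (fun R Z => Win (cells N R) (cells N Z)) T e := by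
  have := Nat.eq_of_beq_eq_true he
  exact this ▸ good_list (closed_win N) L n hg h

end Vale.Agent.P062
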