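import Vale.Agent.P062.Game

/-!
# P062: winning regions

`Win R Z`: there is a bound within which Maker wins every position in which it owns `R` and Breaker
owns nothing of `Z`. Such pairs combine by the leaf rule and the move rule, and are invariant under
the eight point symmetries.
-/

namespace Vale.Agent.P062

lemma exists_free (M B : Finset Cell) : ∃ c : Cell, c ∉ M ∧ c ∉ B := by
  obtain ⟨c, hc⟩ := Infinite.exists_notMem_finset (M ∪ B)
  exact ⟨c, fun h => hc (Finset.mem_union_left _ h), fun h => hc (Finset.mem_union_right _ h)⟩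

lemma winIn_succ : ∀ n M B, WinIn n M B → WinIn (n + 1) M B
  | 0, _, _, h => h.elim
  | n + 1, M, B, ⟨c, h1, h2, h3⟩ =>
    ⟨c, h1, h2, h3.imp id fun h b hb hb' => winIn_succ n _ _ (h b hb hb')⟩

lemma winIn_mono {n m : ℕ} (h : n ≤ m) {M B : Finset Cell} (hw : WinIn n M B) : WinIn m M B := by
  induction m, h using Nat.le_induction with
  | base => exact hw
  | succ m _ ih => exact winIn_succ m M B ih

/-- Maker wins from every position with `R` its own and `Z` free of Breaker, within a fixed bound. -/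
def Win (R Z : Set Cell) : Prop :=
  ∃ n, ∀ M B : Finset Cell, Disjoint M B → R ⊆ ↑M → Disjoint Z ↑B → WinIn n M B

lemma win_leaf {C : Finset Cell} (hC : Allowed C) {c : Cell} {R Z : Set Cell}
    (hR : ∀ z ∈ C, z ≠ c → z ∈ R) (hZ : c ∈ Z) : Win R Z := by
  refine ⟨1, fun M B _ hM hB => ?_⟩
  have hcB : c ∉ B := fun h => Set.disjoint_left.1 hB hZ h
  by_cases hcM : c ∈ M
  · obtain ⟨x, hx1, hx2⟩ := exists_free M B
    refine ⟨x, hx1, hx2, Or.inl ⟨C, hC, fun z hz => Finset.mem_insert_of_mem ?_⟩⟩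
    by_cases h : z = c
    · exact h ▸ hcM
    · exact hM (hR z hz h)
  · refine ⟨c, hcM, hcB, Or.inl ⟨C, hC, fun z hz => ?_⟩⟩
    by_cases h : z = c
    · exact h ▸ Finset.mem_insert_self c M
    · exact Finset.mem_insert_of_mem (hM (hR z hz h))

lemma win_move {ι : Type} [Fintype ι] {m : Cell} {Rs Zs : ι → Set Cell} {R Z : Set Cell}
    (hk : ∀ i, Win (Rs i) (Zs i)) (hI : ∀ c, (∀ i, c ∈ Zs i) → c = m ∨ ∃ i, c ∈ Rs i)
    (hR : ∀ i, ∀ c ∈ Rs i, c = m ∨ c ∈ R) (hm : m ∈ Z) (hZ : ∀ i, Zs i ⊆ Z) : Win R Z := by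
  choose n hn using hk
  refine ⟨Finset.univ.sup n + 1, fun M B hMB hM hB => ?_⟩
  have hmB : m ∉ B := fun h => Set.disjoint_left.1 hB hm h
  obtain ⟨x, hx1, hx2, hxm⟩ : ∃ x, x ∉ M ∧ x ∉ B ∧ (m ∈ insert x M) := by
    by_cases h : m ∈ M
    · obtain ⟨x, h1, h2⟩ := exists_free M B
      exact ⟨x, h1, h2, Finset.mem_insert_of_mem h⟩
    · exact ⟨m, h, hmB, Finset.mem_insert_self m M⟩
  have hsub : ∀ i, Rs i ⊆ ↑(insert x M) := fun i c hc => by
    rcases hR i c hc with rfl | h
    · exact hxm
    · exact Finset.mem_insert_of_mem (hM h)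
  refine ⟨x, hx1, hx2, Or.inr fun b hb hb' => ?_⟩
  have : ∃ i, b ∉ Zs i := by
    by_contra hc
    push Not at hc
    rcases hI b hc with rfl | ⟨i, hi⟩
    · exact hb hxm
    · exact hb (hsub i hi)
  obtain ⟨i, hi⟩ := this
  refine winIn_mono (Finset.le_sup (Finset.mem_univ i)) (hn i _ _ ?_ (hsub i) ?_)
  · rw [Finset.disjoint_insert_right, Finset.disjoint_insert_left]
    exact ⟨hb, hx2, hMB⟩
  · rw [Finset.coe_insert, Set.disjoint_insert_right]
    exact ⟨hi, Set.disjoint_left.2 fun c hc hc' => Set.disjoint_left.1 hB (hZ i hc) hc'⟩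

/-- The point symmetry given by a signed permutation. -/
def symm8 (sw : Bool) (e f : ℤˣ) : Cell ≃ Cell where
  toFun := signedPerm sw e f
  invFun := if sw then signedPerm true f e else signedPerm false e f
  left_inv c := by
    rcases Int.units_eq_one_or e with rfl | rfl <;> rcases Int.units_eq_one_or f with rfl | rfl <;>
      cases sw <;> simp [signedPerm]
  right_inv c := by
    rcases Int.units_eq_one_or e with rfl | rfl <;> rcases Int.units_eq_one_or f with rfl | rfl <;>
      cases sw <;> simp [signedPerm]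

lemma signedPerm_add (sw : Bool) (e f : ℤˣ) (a b : Cell) :
    signedPerm sw e f (a + b) = signedPerm sw e f a + signedPerm sw e f b := by
  cases sw <;> simp [signedPerm, mul_add]

lemma signedPerm_comp (sw sw' : Bool) (e f e' f' : ℤˣ) :
    ∃ (s : Bool) (a b : ℤˣ), ∀ c, signedPerm sw e f (signedPerm sw' e' f' c) = signedPerm s a b c := by
  cases sw
  · exact ⟨sw', e * e', f * f', fun c => by cases sw' <;> simp [signedPerm, mul_assoc]⟩
  · exact ⟨!sw', e * f', f * e', fun c => by cases sw' <;> simp [signedPerm, mul_assoc]⟩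

lemma allowed_map (sw : Bool) (e f : ℤˣ) {C : Finset Cell} (h : Allowed C) :
    Allowed (C.image (symm8 sw e f)) := by
  obtain ⟨t, sw', e', f', rfl⟩ := h
  obtain ⟨s, a, b, hs⟩ := signedPerm_comp sw sw' e f e' f'
  refine ⟨signedPerm sw e f t, s, a, b, ?_⟩
  rw [Finset.image_image]
  refine Finset.image_congr fun c _ => ?_
  show signedPerm sw e f (t + signedPerm sw' e' f' c) = _
  rw [signedPerm_add, hs]

lemma winIn_map (g : Cell ≃ Cell) (hg : ∀ C, Allowed C → Allowed (C.image g)) :
    ∀ n M B, WinIn n M B → WinIn n (M.image g) (B.image g)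
  | 0, _, _, h => h.elim
  | n + 1, M, B, ⟨c, h1, h2, h3⟩ => by
    refine ⟨g c, ?_, ?_, ?_⟩
    · simp [h1]
    · simp [h2]
    · rw [← Finset.image_insert]
      rcases h3 with ⟨C, hC, hCM⟩ | h3
      · exact Or.inl ⟨_, hg C hC, Finset.image_subset_image hCM⟩
      · refine Or.inr fun b hb hb' => ?_
        obtain ⟨b, rfl⟩ := g.surjective b
        rw [← Finset.image_insert]
        exact winIn_map g hg n _ _ (h3 b (fun h => hb (Finset.mem_image_of_mem g h))
          fun h => hb' (Finset.mem_image_of_mem g h))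

/-- Winning regions are invariant under the point symmetries. -/
lemma win_map (sw : Bool) (e f : ℤˣ) {R Z : Set Cell} (h : Win R Z) :
    Win (symm8 sw e f '' R) (symm8 sw e f '' Z) := by
  obtain ⟨n, hn⟩ := h
  set g := symm8 sw e f
  refine ⟨n, fun M B hMB hM hB => ?_⟩
  have back : ∀ S : Finset Cell, (S.image g.symm).image g = S := fun S => by
    rw [Finset.image_image]; simp
  rw [← back M, ← back B]
  refine winIn_map g (fun C => allowed_map sw e f) n _ _ (hn _ _ ?_ ?_ ?_)
  · rw [Finset.disjoint_left]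
    simp only [Finset.mem_image]
    rintro z ⟨a, ha, rfl⟩ ⟨b, hb, hba⟩
    exact Finset.disjoint_left.1 hMB ha (g.symm.injective hba ▸ hb)
  · intro z hz
    simp only [Finset.coe_image, Set.mem_image]
    exact ⟨g z, hM ⟨z, hz, rfl⟩, by simp⟩
  · rw [Set.disjoint_left]
    simp only [Finset.coe_image, Set.mem_image]
    rintro z hz ⟨b, hb, rfl⟩
    exact Set.disjoint_left.1 hB ⟨g.symm b, hz, by simp⟩ hb

/-- A bound on the number of moves gives a strategy. -/
theorem makerWins_of_winIn {n : ℕ} (h : WinIn n ∅ ∅) : MakerWins := by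
  classical
  have hfree := exists_free
  choose free hf1 hf2 using hfree
  have good : ∀ M B, ∃ c, c ∉ M ∧ c ∉ B ∧ ∀ (hw : ∃ m, WinIn (m + 1) M B),
      Owns (insert c M) ∨ ∀ b, b ∉ insert c M → b ∉ B →
        WinIn (Nat.find hw) (insert c M) (insert b B) := by
    intro M B
    by_cases hw : ∃ m, WinIn (m + 1) M B
    · obtain ⟨c, h1, h2, h3⟩ := Nat.find_spec hw
      exact ⟨c, h1, h2, fun _ => h3⟩
    · exact ⟨free M B, hf1 M B, hf2 M B, fun h' => absurd h' hw⟩
  choose σ hσ1 hσ2 hσ3 using good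
  refine ⟨n, σ, fun M B => ⟨hσ1 M B, hσ2 M B⟩, fun β hl => ?_⟩
  have mono : ∀ k ≤ n, (play σ β k).1 ⊆ (play σ β n).1 := by
    intro k hk
    clear h hl
    induction n, hk using Nat.le_induction with
    | base => exact subset_rfl
    | succ j _ ih => exact ih.trans (Finset.subset_insert _ _)
  by_contra hno
  have key : ∀ k ≤ n, WinIn (n - k) (play σ β k).1 (play σ β k).2 := by
    intro k hk
    induction k with
    | zero => simpa [play] using h
    | succ k ih =>
      have hk' := ih (Nat.le_of_succ_le hk)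
      rw [show n - k = (n - (k + 1)) + 1 by omega] at hk'
      have hw : ∃ m, WinIn (m + 1) (play σ β k).1 (play σ β k).2 := ⟨_, hk'⟩
      have hfind : Nat.find hw ≤ n - (k + 1) := Nat.find_le hk'
      rcases hσ3 _ _ hw with ⟨C, hC, hCM⟩ | h1
      · exact absurd ⟨C, hC, hCM.trans (mono (k + 1) hk)⟩ hno
      · exact winIn_mono hfind (h1 _ (hl k hk).1 (hl k hk).2)
  have := key n le_rfl
  rw [Nat.sub_self] at this
  exact this

end Vale.Agent.P062
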